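import Mathlib
import Vale.Agent.Lib.P084.Hilbert

namespace Vale.Agent.Results.P084.HilbertSource

/-- Let `X` be a real inner product space (complete or not, of any dimension) and `Y` any real
normed space. Every surjective isometry `f` from the unit sphere of `X` onto the unit sphere of
`Y` is the restriction of a linear isometry of `X` onto `Y`. -/
theorem result {X Y : Type*} [NormedAddCommGroup X] [InnerProductSpace ℝ X]
    [NormedAddCommGroup Y] [NormedSpace ℝ Y]
    (f : Metric.sphere (0 : X) 1 → Metric.sphere (0 : Y) 1)
    (hf : Isometry f) (hsurj : Function.Surjective f) :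
    ∃ T : X ≃ₗᵢ[ℝ] Y, ∀ x : Metric.sphere (0 : X) 1, T x = f x :=
  Vale.Agent.Lib.P084.sphere_isometry_extends f hf hsurj

end Vale.Agent.Results.P084.HilbertSource
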